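import Vale.Agent.P129B64.Dl
import Vale.Agent.P129BM.Defs

/-!
# Block sequences and the second alternative in the dual space
-/

set_option linter.unusedSectionVars false

namespace Vale.Agent.P129B

universe v

variable {N : Type v} [ZM N]
variable {R : Type*} [Field R] [LinearOrder R] [IsStrictOrderedRing R] [Coded N R] [RF N R]
  {K : Type*} [Field K] [Algebra R K] [Nm K R] [KA R K] [Coded N K] [KF N R K]
  {E : Type*} [AddCommGroup E] [Module K E] [Nm E R] [NA R K E] [Coded N E] [NS N R K E]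

theorem hasH_iff_hh {φ : NN N → Dual N K E} :
    HasH φ ↔ B64.HH (fun (u : Dual N K E) (x : E) => u x) φ :=
  ⟨fun h n a η ha hη => h n a ha η hη, fun h n a ha η hη => h n a η ha hη⟩

theorem InK.inSp {f : NN N → Dual N K E} {n m : NN N} {t : R} {u : Dual N K E}
    (h : InK f n m t u) : InSp f n m u :=
  h.imp fun _ hb => ⟨hb.1, hb.2.1, hb.2.2.1, hb.2.2.2.2⟩

/-- The property `HasH` passes to block sequences. -/
theorem HasH.block {φ u : NN N → Dual N K E} [Intl N φ] [Intl N u] {M : NN N → NN N} [Intl N M]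
    (H : HasH φ) (hmono : ∀ k, M k ≤ M (k + 1)) (hu : ∀ k, InSp φ (M k) (M (k + 1)) (u k)) :
    HasH u :=
  hasH_iff_hh.2 ((hasH_iff_hh.1 H).block B64.pr_dual (DefF.ofIntl φ) (DefF.ofIntl u)
    (DefF.ofIntl M) hmono hu)

/-- The second alternative gives a block sequence with a lower estimate. -/
theorem HasH.beta {φ : NN N → Dual N K E} [Intl N φ] (H : HasH φ) {x₀ : E} {δ : R} (hδ : 0 < δ)
    (hT : ∀ n, ¬ Ta φ n x₀ δ) : ∃ (u : NN N → Dual N K E) (c : R), Intl N u ∧
      (∀ k, nm (u k) ≤ 1) ∧ HasH u ∧ 0 < c ∧ Lo1 u c := by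
  obtain ⟨u, c, h1, h2, h3, h4, h5⟩ :=
    (hasH_iff_hh.1 H).beta B64.pr_dual (DefF.ofIntl φ) hδ hT
  exact ⟨u, c, h1, h2, hasH_iff_hh.2 h3, h4, h5⟩

/-- Successive normalised combinations keep the lower estimate. -/
theorem Lo1.block {f u : NN N → Dual N K E} [Intl N f] [Intl N u] {M : NN N → NN N} [Intl N M]
    {c : R} (H : Lo1 f c) (hmono : ∀ k, M k ≤ M (k + 1))
    (hu : ∀ k, InK f (M k) (M (k + 1)) (1 : R) (u k)) : Lo1 u c :=
  B64.LO.block (K := K) (DefF.ofIntl f) (DefF.ofIntl u) (DefF.ofIntl M) H hmono hu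

/-- A pointwise null sequence with a lower estimate is in the first alternative. -/
theorem Ta.of_null {v : NN N → Dual N K E} [Intl N v] {c : R} (hc : 0 < c) (H : Lo1 v c) {x : E}
    (hx : Nul v x) {ε : R} (hε : 0 < ε) : ∃ n, Ta v n x ε :=
  B64.TA.of_null B64.pr_dual (DefF.ofIntl v) hc H hx hε

/-- The members of a sequence with a lower estimate are bounded below. -/
theorem Lo1.le_nm {v : NN N → Dual N K E} [Intl N v] {c : R} (H : Lo1 v c) (k : NN N) :
    c ≤ nm (v k) := by
  have hv : DefF N v := DefF.ofIntl v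
  have ha : DefF N (fun i : NN N => if i = k then (1 : K) else 0) := by fun_prop
  have h := H (k + 1) _ ha.toIntl
  rw [isum_single (by fun_prop) (NN.lt_add_one k) fun i _ e => by rw [if_neg e, B64.nmK_zero],
    cmb, isum_single (by fun_prop) (NN.lt_add_one k) fun i _ e => by rw [if_neg e, zero_smul],
    if_pos rfl, B64.nmK_one, mul_one, one_smul] at h
  exact h

end Vale.Agent.P129B
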