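import Vale.Agent.P129B64.Core

/-!
# Block sequences and the second alternative, over an abstract pairing
-/

set_option linter.unusedSectionVars false

namespace Vale.Agent.P129B.B64

universe v

variable {N : Type v} [ZM N]
variable {R : Type*} [Field R] [LinearOrder R] [IsStrictOrderedRing R] [Coded N R] [RF N R]
  {K : Type*} [Field K] [Algebra R K] [Nm K R] [KA R K] [Coded N K] [KF N R K]
  {E : Type*} [AddCommGroup E] [Module K E] [Nm E R] [NA R K E] [Coded N E] [NS N R K E]
  {F : Type*} [AddCommGroup F] [Module K F] [Nm F R] [NA R K F] [Coded N F] [NS N R K F]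

/-- finite combinations -/
noncomputable def cb (a : NN N → K) (φ : NN N → F) (m : NN N) : F := isum (fun i => a i • φ i) m

/-- a definable pairing of functionals and vectors -/
structure Pr (N : Type v) [ZM N] {R K F E : Type*} [Field R] [LinearOrder R] [Field K] [Nm K R]
    [Coded N K] [AddCommGroup F] [Module K F] [Nm F R] [Coded N F] [Nm E R] [Coded N E]
    (val : F → E → K) : Prop where
  dfn : DefF N (fun p : F × E => val p.1 p.2)
  add : ∀ u w x, val (u + w) x = val u x + val w x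
  smul : ∀ (c : K) u x, val (c • u) x = c * val u x
  le : ∀ u x, nm (val u x) ≤ nm u * nm x

/-- the spans are normed by vectors annihilated by the other members -/
def HH (val : F → E → K) (φ : NN N → F) : Prop :=
  ∀ (n : NN N) (a : NN N → K) (η : R), Intl N a → 0 < η → ∃ x : E, nm x ≤ 1 ∧
    (∀ j, n ≤ j ∨ a j = 0 → val (φ j) x = 0) ∧ nm (cb a φ n) - η ≤ nm (val (cb a φ n) x)

/-- small on the tail span -/
def TA (val : F → E → K) (φ : NN N → F) (n : NN N) (x : E) (r : R) : Prop :=
  ∀ (m : NN N) (a : NN N → K), Intl N a → (∀ i, i < n → a i = 0) →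
    nm (val (cb a φ m) x) ≤ r * nm (cb a φ m)

variable (K) in
/-- in the span of a block -/
def SP (φ : NN N → F) (n m : NN N) (u : F) : Prop :=
  ∃ a : NN N → K, Intl N a ∧ (∀ i, i < n → a i = 0) ∧ (∀ i, m ≤ i → a i = 0) ∧ u = cb a φ m

variable (K) in
/-- a combination of a block with given sum of the moduli -/
def IK (φ : NN N → F) (n m : NN N) (t : R) (u : F) : Prop :=
  ∃ a : NN N → K, Intl N a ∧ (∀ i, i < n → a i = 0) ∧ (∀ i, m ≤ i → a i = 0) ∧
    isum (fun i => nm (a i)) m = t ∧ u = cb a φ m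

variable (K) in
/-- lower estimate -/
def LO (u : NN N → F) (c : R) : Prop :=
  ∀ (n : NN N) (a : NN N → K), Intl N a → c * isum (fun k => nm (a k)) n ≤ nm (cb a u n)

variable {val : F → E → K}

theorem Pr.zero (h : Pr N val) (x : E) : val 0 x = 0 := by
  have := h.smul 0 0 x
  rwa [zero_smul, zero_mul] at this

theorem Pr.val_cb (h : Pr N val) {a : NN N → K} {φ : NN N → F} (ha : DefF N a) (hφ : DefF N φ)
    (m : NN N) (x : E) : val (cb a φ m) x = isum (fun i => a i * val (φ i) x) m := by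
  have h1 := h.dfn
  rw [cb, map_isum' (φ := fun u => val u x) (by fun_prop) (h.zero x) (fun u w => h.add u w x)
    (by fun_prop)]
  exact congrArg (fun f => isum f m) (funext fun i => h.smul _ _ _)

include R in
theorem cb_of_le {a : NN N → K} {φ : NN N → F} (ha : DefF N a) (hφ : DefF N φ) {m n : NN N}
    (hmn : m ≤ n) (h : ∀ i, m ≤ i → a i = 0) : cb a φ n = cb a φ m :=
  isum_of_le (by fun_prop) hmn fun i hi _ => by rw [h i hi, zero_smul]

include R in
/-- combinations of blocks -/
theorem cb_block {φ u : NN N → F} (hφ : DefF N φ) (hu : DefF N u) {M : NN N → NN N}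
    (hM : DefF N M) (hmono : ∀ k, M k ≤ M (k + 1)) {A : NN N → NN N → K}
    (hA : DefF N (fun p : NN N × NN N => A p.1 p.2)) (h2 : ∀ k i, M (k + 1) ≤ i → A k i = 0)
    (h3 : ∀ k, u k = cb (A k) φ (M (k + 1))) {b : NN N → K} (hb : DefF N b) (n : NN N) :
    cb (fun i => isum (fun k => b k * A k i) n) φ (M n) = cb b u n := by
  unfold cb
  rw [isum_congr (g := fun i => isum (fun k => (b k * A k i) • φ i) n) (by fun_prop) (by fun_prop)
      fun i _ => isum_smul (by fun_prop) (φ i) n,
    isum_comm (f := fun i k => (b k * A k i) • φ i) (by fun_prop)]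
  refine isum_congr (by fun_prop) (by fun_prop) fun k hk => ?_
  rw [h3 k, ← cb_of_le (by fun_prop) hφ (mono_of_succ hM hmono (NN.add_one_le_iff.2 hk)) (h2 k),
    cb, smul_isum (b k) (by fun_prop)]
  exact isum_congr (by fun_prop) (by fun_prop) fun i _ => mul_smul _ _ _

/-- different blocks have disjoint supports -/
theorem blk_disj {M : NN N → NN N} (hM : DefF N M) (hmono : ∀ k, M k ≤ M (k + 1))
    {A : NN N → NN N → K} (h1 : ∀ k i, i < M k → A k i = 0) (h2 : ∀ k i, M (k + 1) ≤ i → A k i = 0)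
    {k l i : NN N} (hk : A k i ≠ 0) (hkl : l ≠ k) : A l i = 0 := by
  have k1 : M k ≤ i := not_lt.1 fun h => hk (h1 k i h)
  have k2 : i < M (k + 1) := not_le.1 fun h => hk (h2 k i h)
  rcases lt_or_gt_of_ne hkl with h | h
  · exact h2 l i ((mono_of_succ hM hmono (NN.add_one_le_iff.2 h)).trans k1)
  · exact h1 l i (k2.trans_le (mono_of_succ hM hmono (NN.add_one_le_iff.2 h)))

include R in
theorem defF_cb {α : Type*} [Coded N α] {a : α → NN N → K} {φ : α → NN N → F}
    {m : α → NN N} (ha : DefF N (fun p : α × NN N => a p.1 p.2))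
    (hφ : DefF N (fun p : α × NN N => φ p.1 p.2)) (hm : DefF N m) :
    DefF N (fun x => cb (a x) (φ x) (m x)) := by
  unfold cb
  fun_prop

include R in
theorem defF_sp {α : Type*} [Coded N α] {φ : NN N → F} (hφ : DefF N φ) {n m : α → NN N}
    {u : α → F} (hn : DefF N n) (hm : DefF N m) (hu : DefF N u) :
    DefF N (fun x => SP K φ (n x) (m x) (u x)) := by
  unfold SP cb
  fun_prop

/-- The property passes to block sequences. -/
theorem HH.block (h : Pr N val) {φ u : NN N → F} (hφ : DefF N φ) (hu : DefF N u)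
    {M : NN N → NN N} (hM : DefF N M) (H : HH val φ) (hmono : ∀ k, M k ≤ M (k + 1))
    (hsp : ∀ k, SP K φ (M k) (M (k + 1)) (u k)) : HH val u := by
  obtain ⟨A, hA, hA'⟩ := exists_intl_choice (N := N)
    (R := fun (k : NN N) (a : NN N → K) => (∀ i, i < M k → a i = 0) ∧
      (∀ i, M (k + 1) ≤ i → a i = 0) ∧ u k = cb a φ (M (k + 1))) (by unfold cb; fun_prop) hsp
  have hA2 := DefF.ofIntl2 (N := N) A
  intro n b η hb hη
  have hb1 : DefF N b := DefF.ofIntl b
  obtain ⟨x, x1, x2, x3⟩ := H (M n) (fun i => isum (fun k => b k * A k i) n) η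
    (DefF.toIntl (by fun_prop)) hη
  rw [cb_block hφ hu hM hmono hA2 (fun k => (hA' k).2.1) (fun k => (hA' k).2.2) hb1] at x3
  refine ⟨x, x1, fun k hk => ?_, x3⟩
  have h1 := h.dfn
  rw [(hA' k).2.2, h.val_cb (by fun_prop) hφ]
  refine isum_eq_zero (by fun_prop) fun i _ => ?_
  by_cases h0 : A k i = 0
  · rw [h0, zero_mul]
  · rw [x2 i ?_, mul_zero]
    rcases hk with hk | hk
    · exact Or.inl ((mono_of_succ hM hmono hk).trans (not_lt.1 fun h => h0 ((hA' k).1 i h)))
    · refine Or.inr (isum_eq_zero (by fun_prop) fun l _ => ?_)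
      by_cases e : l = k
      · rw [e, hk, zero_mul]
      · rw [blk_disj hM hmono (fun k => (hA' k).1) (fun k => (hA' k).2.1) h0 e, mul_zero]

/-- Successive normalised combinations keep the lower estimate. -/
theorem LO.block {f u : NN N → F} (hf : DefF N f) (hu : DefF N u) {M : NN N → NN N}
    (hM : DefF N M) {c : R} (H : LO K f c) (hmono : ∀ k, M k ≤ M (k + 1))
    (hik : ∀ k, IK K f (M k) (M (k + 1)) (1 : R) (u k)) : LO K u c := by
  obtain ⟨A, hA, hA'⟩ := exists_intl_choice (N := N)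
    (R := fun (k : NN N) (a : NN N → K) => (∀ i, i < M k → a i = 0) ∧
      (∀ i, M (k + 1) ≤ i → a i = 0) ∧ isum (fun i => nm (a i)) (M (k + 1)) = (1 : R) ∧
      u k = cb a f (M (k + 1))) (by unfold cb; fun_prop) hik
  have hA2 := DefF.ofIntl2 (N := N) A
  intro n b hb
  have hb1 : DefF N b := DefF.ofIntl b
  have h1 := H (M n) (fun i => isum (fun k => b k * A k i) n) (DefF.toIntl (by fun_prop))
  rw [cb_block hf hu hM hmono hA2 (fun k => (hA' k).2.1) (fun k => (hA' k).2.2.2) hb1] at h1
  refine le_of_eq_of_le ?_ h1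
  congr 1
  have e : ∀ i, nm (isum (fun k => b k * A k i) n) = isum (fun k => nm (b k) * nm (A k i)) n := by
    intro i
    by_cases h0 : ∃ k, k < n ∧ A k i ≠ 0
    · obtain ⟨k, hk, h0⟩ := h0
      have h2 : ∀ l, l ≠ k → A l i = 0 := fun l e =>
        blk_disj hM hmono (fun k => (hA' k).1) (fun k => (hA' k).2.1) h0 e
      rw [isum_single (by fun_prop) hk fun l _ e => by rw [h2 l e, mul_zero],
        isum_single (by fun_prop) hk fun l _ e => by rw [h2 l e, nmK_zero, mul_zero], nmK_mul]
    · have h2 : ∀ l, l < n → A l i = 0 := fun l hl => by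
        by_contra e
        exact h0 ⟨l, hl, e⟩
      rw [isum_eq_zero (by fun_prop) fun l hl => by rw [h2 l hl, mul_zero],
        isum_eq_zero (by fun_prop) fun l hl => by rw [h2 l hl, nmK_zero, mul_zero], nmK_zero]
  rw [isum_congr (f := fun i => nm (isum (fun k => b k * A k i) n))
      (g := fun i => isum (fun k => nm (b k) * nm (A k i)) n) (by fun_prop) (by fun_prop)
      fun i _ => e i, isum_comm (f := fun i k => nm (b k) * nm (A k i)) (by fun_prop)]
  refine isum_congr (by fun_prop) (by fun_prop) fun k hk => ?_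
  rw [← mul_isum (nm (b k)) (by fun_prop), isum_of_le (by fun_prop)
    (mono_of_succ hM hmono (NN.add_one_le_iff.2 hk))
    (fun i hi _ => by rw [(hA' k).2.1 i hi, nmK_zero]), (hA' k).2.2.1, mul_one]

/-- Suppression. -/
theorem HH.suppress (h : Pr N val) {u : NN N → F} (hu : DefF N u) (H : HH val u)
    {b b' : NN N → K} (hb : DefF N b) (hb' : DefF N b') (e : ∀ k, b' k = b k ∨ b' k = 0)
    (n : NN N) : nm (cb b' u n) ≤ nm (cb b u n) := by
  refine le_of_forall_pos_le_add fun η hη => ?_
  obtain ⟨x, x1, x2, x3⟩ := H n b' η hb'.toIntl hη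
  have h1 := h.dfn
  have e1 : val (cb b' u n) x = val (cb b u n) x := by
    rw [h.val_cb hb hu, h.val_cb hb' hu]
    refine isum_congr (by fun_prop) (by fun_prop) fun k _ => ?_
    rcases e k with e | e
    · rw [e]
    · rw [x2 k (Or.inr e), mul_zero, mul_zero]
  have h2 := h.le (cb b u n) x
  have h3 := mul_le_of_le_one_right (nmV_nonneg (K := K) (cb b u n)) x1
  rw [e1] at x3
  linarith

/-- The lower estimate in the second alternative. -/
theorem HH.l1_lower (h : Pr N val) {u : NN N → F} (hu : DefF N u) (H : HH val u) {x₀ : E} {δ : R}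
    (hδ : 0 < δ) (h1 : ∀ k, δ < KA.re (val (u k) x₀)) (h2 : ∀ k, KA.im (val (u k) x₀) = 0) :
    LO K u (δ / (4 * (nm x₀ + 1))) := by
  intro n b hb
  have hb1 : DefF N b := DefF.ofIntl b
  have hd := h.dfn
  have hx : 0 ≤ nm x₀ := nmV_nonneg (K := K) x₀
  have hx0 : 0 < nm x₀ + 1 := by linarith
  have key := isum_nm_le_four hb1 n ((nm x₀ + 1) / δ * nm (cb b u n)) ?_
  · have e1 : δ / (4 * (nm x₀ + 1)) * (4 * ((nm x₀ + 1) / δ * nm (cb b u n))) =
        nm (cb b u n) := by
      field_simp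
    rw [← e1]
    exact mul_le_mul_of_nonneg_left key (by positivity)
  · intro σ hσ
    have hb' : DefF N (fun k => if 0 < KA.re (σ * b k) then b k else 0) := by fun_prop
    have e2 : δ * isum (fun k => max (KA.re (σ * b k)) 0) n ≤
        KA.re (σ * val (cb (fun k => if 0 < KA.re (σ * b k) then b k else 0) u n) x₀) := by
      rw [h.val_cb hb' hu, mul_isum σ (by fun_prop), mul_isum δ (by fun_prop),
        map_isum' (φ := fun z : K => KA.re z) (by fun_prop) (map_zero _) (map_add _)
          (by fun_prop)]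
      refine isum_le_isum (by fun_prop) (by fun_prop) fun k _ => ?_
      by_cases hk : 0 < KA.re (σ * b k)
      · rw [if_pos hk, max_eq_left hk.le, ← mul_assoc, re_mul (σ * b k), h2, mul_zero, sub_zero,
          mul_comm]
        exact mul_le_mul_of_nonneg_left (h1 k).le hk.le
      · rw [if_neg hk, max_eq_right (not_lt.1 hk), zero_mul, mul_zero, mul_zero, map_zero]
    have e3 := H.suppress h hu hb1 hb' (fun k => by
      by_cases hk : 0 < KA.re (σ * b k)
      · exact Or.inl (if_pos hk)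
      · exact Or.inr (if_neg hk)) n
    generalize cb (fun k => if 0 < KA.re (σ * b k) then b k else 0) u n = w at e2 e3
    have e4 := re_le_nmK (σ * val w x₀)
    rw [nmK_mul] at e4
    have e5 := mul_le_of_le_one_left (nmK_nonneg (val w x₀)) hσ
    have e6 := h.le w x₀
    have e7 : nm w * nm x₀ ≤ nm (cb b u n) * (nm x₀ + 1) :=
      mul_le_mul e3 (by linarith) hx (nmV_nonneg (K := K) _)
    rw [div_mul_eq_mul_div, le_div_iff₀ hδ]
    linarith

/-- A normalised block in the second alternative. -/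
theorem beta_step (h : Pr N val) {φ : NN N → F} (hφ : DefF N φ) {x₀ : E} {δ : R} {n : NN N}
    (hT : ¬ TA val φ n x₀ δ) : ∃ m, n ≤ m ∧ ∃ u, SP K φ n m u ∧ nm u ≤ 1 ∧
      δ < KA.re (val u x₀) ∧ KA.im (val u x₀) = 0 := by
  unfold TA at hT
  push Not at hT
  obtain ⟨m, a, ha, h0, hw⟩ := hT
  have ha1 : DefF N a := DefF.ofIntl a
  have hw0 : 0 < nm (cb a φ m) := by
    rcases eq_or_lt_of_le (nmV_nonneg (K := K) (cb a φ m)) with e | e
    · have h1 := h.le (cb a φ m) x₀
      rw [← e, mul_zero] at hw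
      rw [← e, zero_mul] at h1
      exact absurd h1 (not_le.2 hw)
    · exact e
  obtain ⟨c, c1, c2⟩ := exists_rot (val (cb a φ m) x₀)
  have e : val ((algebraMap R K (nm (cb a φ m))⁻¹ * c) • cb a φ m) x₀ =
      algebraMap R K ((nm (cb a φ m))⁻¹ * nm (val (cb a φ m) x₀)) := by
    rw [h.smul, mul_assoc, c2, map_mul]
  refine ⟨max n m, le_max_left _ _, (algebraMap R K (nm (cb a φ m))⁻¹ * c) • cb a φ m, ?_, ?_,
    ?_, ?_⟩
  · generalize algebraMap R K (nm (cb a φ m))⁻¹ * c = d
    have hd : DefF N (fun i => if i < m then d * a i else 0) := by fun_prop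
    refine ⟨fun i => if i < m then d * a i else 0, hd.toIntl, fun i hi => ?_, fun i hi => ?_, ?_⟩
    · simp only [h0 i hi, mul_zero, ite_self]
    · exact if_neg (not_lt.2 ((le_max_right n m).trans hi))
    · rw [cb_of_le hd hφ (le_max_right n m) fun i hi => if_neg (not_lt.2 hi), cb, cb,
        smul_isum d (by fun_prop)]
      exact isum_congr (by fun_prop) (by fun_prop) fun i hi => by rw [if_pos hi, mul_smul]
  · rw [NA.nm_smul, nmK_mul, c1, mul_one, nmK_ofR, abs_of_pos (inv_pos.2 hw0),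
      inv_mul_cancel₀ hw0.ne']
  · rw [e, re_ofR, lt_inv_mul_iff₀ hw0, mul_comm]
    exact hw
  · rw [e, im_ofR]

/-- The second alternative gives a block sequence with a lower estimate. -/
theorem HH.beta (h : Pr N val) {φ : NN N → F} (hφ : DefF N φ) (H : HH val φ) {x₀ : E} {δ : R}
    (hδ : 0 < δ) (hT : ∀ n, ¬ TA val φ n x₀ δ) :
    ∃ (u : NN N → F) (c : R), Intl N u ∧ (∀ k, nm (u k) ≤ 1) ∧ HH val u ∧ 0 < c ∧ LO K u c := by
  have hd := h.dfn
  obtain ⟨s, hs, -, hs'⟩ := exists_intl_seq (N := N) (β := NN N × F) (Inv := fun _ _ => True)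
    (R := fun _ s t => s.1 ≤ t.1 ∧ SP K φ s.1 t.1 t.2 ∧ nm t.2 ≤ 1 ∧
      δ < KA.re (val t.2 x₀) ∧ KA.im (val t.2 x₀) = 0) (by fun_prop)
    (DefF.and (by fun_prop) (DefF.and (defF_sp hφ (by fun_prop) (by fun_prop) (by fun_prop))
      (by fun_prop))) (0, 0) trivial
    fun k s _ _ => by
      obtain ⟨m, h1, u, h2⟩ := beta_step h hφ (hT s.1)
      exact ⟨(m, u), inferInstance, trivial, h1, h2⟩
  have hu : DefF N (fun k => (s (k + 1)).2) := by fun_prop
  have H' : HH val fun k => (s (k + 1)).2 :=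
    H.block h hφ hu (M := fun k => (s k).1) (by fun_prop) (fun k => (hs' k).2.1)
      fun k => (hs' k).2.2.1
  have hx : 0 ≤ nm x₀ := nmV_nonneg (K := K) x₀
  exact ⟨_, _, hu.toIntl, fun k => (hs' k).2.2.2.1, H', by positivity,
    H'.l1_lower h hu hδ (fun k => (hs' k).2.2.2.2.1) fun k => (hs' k).2.2.2.2.2⟩

/-- A pointwise null sequence with a lower estimate is in the first alternative. -/
theorem TA.of_null (h : Pr N val) {u : NN N → F} (hu : DefF N u) {c : R} (hc : 0 < c)
    (H : LO K u c) {x : E} (hx : ∀ ε : R, 0 < ε → ∃ n, ∀ k, n ≤ k → nm (val (u k) x) ≤ ε)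
    {ε : R} (hε : 0 < ε) : ∃ n, TA val u n x ε := by
  obtain ⟨n, hn⟩ := hx (ε * c) (by positivity)
  have hd := h.dfn
  refine ⟨n, fun m a ha h0 => ?_⟩
  have ha1 : DefF N a := DefF.ofIntl a
  have h1 : nm (val (cb a u m) x) ≤ isum (fun i => nm (a i) * (ε * c)) m := by
    rw [h.val_cb ha1 hu]
    refine (nmK_isum_le (by fun_prop) m).trans
      (isum_le_isum (by fun_prop) (by fun_prop) fun i _ => ?_)
    rw [nmK_mul]
    rcases lt_or_ge i n with hi | hi
    · rw [h0 i hi, nmK_zero, zero_mul, zero_mul]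
    · exact mul_le_mul_of_nonneg_left (hn i hi) (nmK_nonneg _)
  rw [← isum_mul (ε * c) (by fun_prop)] at h1
  have h2 := mul_le_mul_of_nonneg_left (H m a ha) hε.le
  linarith

end Vale.Agent.P129B.B64
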