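import Vale.Agent.P129BZ.Cls
import Vale.Agent.P129B.Sum

/-!
# Block sequences of functionals inside a model, over an abstract pairing
-/

namespace Vale.Agent.P129B.B64

universe v

variable {N : Type v} [ZM N]
variable {R : Type*} [Field R] [LinearOrder R] [IsStrictOrderedRing R]
  {K : Type*} [Field K] [Algebra R K] [Nm K R] [KA R K]

/-! ### Scalars -/

theorem re_ofR_mul (r : R) (z : K) : KA.re (algebraMap R K r * z) = r * KA.re z := by
  rw [← Algebra.smul_def, map_smul, smul_eq_mul]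

theorem im_ofR_mul (r : R) (z : K) : KA.im (algebraMap R K r * z) = r * KA.im z := by
  rw [← Algebra.smul_def, map_smul, smul_eq_mul]

theorem re_ofR (r : R) : KA.re (algebraMap R K r) = r := by
  have := re_ofR_mul r (1 : K)
  rwa [mul_one, KA.re_one, mul_one] at this

theorem im_ofR (r : R) : KA.im (algebraMap R K r) = 0 := by
  have := im_ofR_mul r (1 : K)
  rwa [mul_one, KA.im_one, mul_zero] at this

theorem re_I_mul (z : K) : KA.re (KA.I * z) = -KA.im z := by
  have h := KA.re_add_im z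
  rcases KA.I_cases (K := K) with h0 | ⟨h1, -⟩
  · rw [h0, mul_zero, add_zero] at h
    rw [h0, zero_mul, map_zero, ← h, im_ofR, neg_zero]
  · have e : KA.I * z = algebraMap R K (KA.re z) * KA.I + algebraMap R K (-KA.im z) := by
      rw [map_neg]
      linear_combination (-KA.I : K) * h + algebraMap R K (KA.im z) * h1
    rw [e, map_add, re_ofR_mul, KA.re_I, mul_zero, zero_add, re_ofR]

theorem im_I_mul (z : K) : KA.im (KA.I * z) = KA.re z * KA.im (KA.I : K) := by
  have h := KA.re_add_im z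
  rcases KA.I_cases (K := K) with h0 | ⟨h1, -⟩
  · rw [h0, zero_mul, map_zero, mul_zero]
  · have e : KA.I * z = algebraMap R K (KA.re z) * KA.I + algebraMap R K (-KA.im z) := by
      rw [map_neg]
      linear_combination (-KA.I : K) * h + algebraMap R K (KA.im z) * h1
    rw [e, map_add, im_ofR_mul, im_ofR, add_zero]

theorem im_mul_im_I (z : K) : KA.im z * KA.im (KA.I : K) = KA.im z := by
  have h := KA.re_add_im z
  rcases KA.I_cases (K := K) with h0 | ⟨-, h1⟩
  · rw [h0, mul_zero, add_zero] at h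
    rw [← h, im_ofR, zero_mul]
  · rw [h1, mul_one]

theorem re_mul (z w : K) : KA.re (z * w) = KA.re z * KA.re w - KA.im z * KA.im w := by
  have e : z * w = algebraMap R K (KA.re z) * w + algebraMap R K (KA.im z) * (KA.I * w) := by
    linear_combination (-w) * KA.re_add_im z
  rw [e, map_add, re_ofR_mul, re_ofR_mul, re_I_mul]
  ring

theorem im_mul (z w : K) : KA.im (z * w) = KA.re z * KA.im w + KA.im z * KA.re w := by
  have e : z * w = algebraMap R K (KA.re z) * w + algebraMap R K (KA.im z) * (KA.I * w) := by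
    linear_combination (-w) * KA.re_add_im z
  rw [e, map_add, im_ofR_mul, im_ofR_mul, im_I_mul]
  linear_combination KA.re w * im_mul_im_I z

theorem nmK_nonneg (z : K) : 0 ≤ nm z := KA.nm_nonneg' z

theorem nmK_mul (z w : K) : nm (z * w) = nm z * nm w := by
  rw [← sq_eq_sq₀ (nmK_nonneg _) (mul_nonneg (nmK_nonneg _) (nmK_nonneg _)), mul_pow, KA.nm_sq,
    KA.nm_sq, KA.nm_sq, re_mul, im_mul]
  ring

theorem nmK_ofR (r : R) : nm (algebraMap R K r) = |r| := by
  rw [← sq_eq_sq₀ (nmK_nonneg _) (abs_nonneg _), KA.nm_sq, re_ofR, im_ofR, sq_abs]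
  ring

theorem nmK_zero : nm (0 : K) = 0 := by
  have := nmK_ofR (K := K) (0 : R)
  rwa [map_zero, abs_zero] at this

theorem nmK_one : nm (1 : K) = 1 := by
  have := nmK_ofR (K := K) (1 : R)
  rwa [map_one, abs_one] at this

theorem nmK_neg (z : K) : nm (-z) = nm z := by
  rw [← sq_eq_sq₀ (nmK_nonneg _) (nmK_nonneg _), KA.nm_sq, KA.nm_sq, map_neg, map_neg]
  ring

theorem re_le_nmK (z : K) : KA.re z ≤ nm z := by
  refine le_of_sq_le_sq ?_ (nmK_nonneg z)
  rw [KA.nm_sq]
  exact le_add_of_nonneg_right (sq_nonneg _)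

theorem nmK_I_le : nm (KA.I : K) ≤ 1 := by
  rcases KA.I_cases (K := K) with h0 | ⟨-, h1⟩
  · rw [h0, nmK_zero]; exact zero_le_one
  · refine le_of_sq_le_sq ?_ zero_le_one
    rw [KA.nm_sq, KA.re_I, h1]
    norm_num

theorem nmK_le_abs (z : K) : nm z ≤ |KA.re z| + |KA.im z| := by
  refine le_of_sq_le_sq ?_ (by positivity)
  rw [KA.nm_sq, add_sq, sq_abs, sq_abs]
  have := mul_nonneg (abs_nonneg (KA.re z)) (abs_nonneg (KA.im z))
  linarith

theorem eq_zero_of_nmK {z : K} (h : nm z = 0) : z = 0 := by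
  have h1 := KA.nm_sq z
  rw [h] at h1
  have h2 : KA.re z = 0 := by nlinarith [sq_nonneg (KA.re z), sq_nonneg (KA.im z)]
  have h3 : KA.im z = 0 := by nlinarith [sq_nonneg (KA.re z), sq_nonneg (KA.im z)]
  rw [← KA.re_add_im z, h2, h3, map_zero, zero_mul, add_zero]

/-- rotation to the positive real axis -/
theorem exists_rot (z : K) : ∃ c : K, nm c = 1 ∧ c * z = algebraMap R K (nm z) := by
  by_cases h : z = 0
  · exact ⟨1, nmK_one, by rw [h, mul_zero, nmK_zero, map_zero]⟩
  · have h1 : nm z ≠ 0 := fun h0 => h (eq_zero_of_nmK h0)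
    refine ⟨algebraMap R K (nm z) * z⁻¹, ?_, by rw [mul_assoc, inv_mul_cancel₀ h, mul_one]⟩
    refine mul_right_cancel₀ h1 ?_
    rw [← nmK_mul, mul_assoc, inv_mul_cancel₀ h, mul_one, nmK_ofR, abs_of_nonneg (nmK_nonneg z),
      one_mul]

theorem nmK_add (z w : K) : nm (z + w) ≤ nm z + nm w := by
  obtain ⟨c, h1, h2⟩ := exists_rot (z + w)
  have h3 := re_le_nmK (c * z)
  have h4 := re_le_nmK (c * w)
  rw [nmK_mul, h1, one_mul] at h3 h4
  have h5 : nm (z + w) = KA.re (c * z) + KA.re (c * w) := by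
    rw [← map_add, ← mul_add, h2, re_ofR]
  linarith

theorem four_parts (z : K) : nm z ≤ max (KA.re (1 * z)) 0 + max (KA.re (-1 * z)) 0 +
    max (KA.re (KA.I * z)) 0 + max (KA.re (-KA.I * z)) 0 := by
  have e : ∀ r : R, |r| ≤ max r 0 + max (-r) 0 := fun r => by
    have h1 := le_max_left r 0
    have h2 := le_max_right r 0
    have h3 := le_max_left (-r) 0
    have h4 := le_max_right (-r) 0
    rw [abs_le]
    constructor <;> linarith
  have h1 := e (KA.re z)
  have h2 := e (KA.im z)
  have h3 := nmK_le_abs z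
  rw [one_mul, neg_one_mul, map_neg, neg_mul, map_neg, re_I_mul, neg_neg]
  linarith

section V

variable {V : Type*} [AddCommGroup V] [Module K V] [Nm V R] [NA R K V]

include K in
theorem nmV_zero : nm (0 : V) = 0 := by
  have := NA.nm_smul (0 : K) (0 : V)
  rwa [zero_smul, nmK_zero, zero_mul] at this

include K in
theorem nmV_nonneg (x : V) : 0 ≤ nm x := by
  have h1 := NA.nm_add x ((-1 : K) • x)
  rw [NA.nm_smul, nmK_neg, nmK_one, one_mul, neg_one_smul, add_neg_cancel, nmV_zero (K := K)] at h1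
  linarith

end V

variable [Coded N R] [RF N R] [Coded N K] [KF N R K]

instance defNmK : DefNm N R K := ⟨defF_of_rel
  (R := fun (z : K) (r : R) => 0 ≤ r ∧ r ^ 2 = KA.re z ^ 2 + KA.im z ^ 2)
  (fun _ _ => inferInstance) (by fun_prop) fun z r _ _ =>
    ⟨fun h => (sq_eq_sq₀ (nmK_nonneg z) h.1).1 ((KA.nm_sq z).trans h.2.symm),
      fun h => h ▸ ⟨nmK_nonneg z, KA.nm_sq z⟩⟩⟩

theorem nmK_isum_le {f : NN N → K} (hf : DefF N f) (n : NN N) :
    nm (isum f n) ≤ isum (fun i => nm (f i)) n :=
  NN.ind (P := fun n => nm (isum f n) ≤ isum (fun i => nm (f i)) n) (by fun_prop)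
    (by rw [isum_zero, isum_zero, nmK_zero]) (fun m ih => by
      rw [isum_succ hf, isum_succ (f := fun i => nm (f i)) (by fun_prop)]
      exact (nmK_add _ _).trans (add_le_add_left ih _)) n

/-- Splitting into four real parts. -/
theorem isum_nm_le_four {b : NN N → K} (hb : DefF N b) (n : NN N) (C : R)
    (h : ∀ σ : K, nm σ ≤ 1 → isum (fun k => max (KA.re (σ * b k)) 0) n ≤ C) :
    isum (fun k => nm (b k)) n ≤ 4 * C := by
  have h1 := h 1 nmK_one.le
  have h2 := h (-1) (by rw [nmK_neg]; exact nmK_one.le)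
  have h3 := h KA.I nmK_I_le
  have h4 := h (-KA.I) (by rw [nmK_neg]; exact nmK_I_le)
  have h5 := isum_le_isum (f := fun k => nm (b k))
    (g := fun k => max (KA.re (1 * b k)) 0 + max (KA.re (-1 * b k)) 0 +
      max (KA.re (KA.I * b k)) 0 + max (KA.re (-KA.I * b k)) 0) (by fun_prop) (by fun_prop)
    (n := n) fun k _ => four_parts (b k)
  rw [isum_add (by fun_prop) (by fun_prop), isum_add (by fun_prop) (by fun_prop),
    isum_add (by fun_prop) (by fun_prop)] at h5
  linarith

/-- monotonicity from successor steps -/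
theorem mono_of_succ {M : NN N → NN N} (hM : DefF N M) (h : ∀ k, M k ≤ M (k + 1)) {k l : NN N}
    (hkl : k ≤ l) : M k ≤ M l :=
  NN.le_ind (P := fun l => M k ≤ M l) (by fun_prop) le_rfl (fun n _ ih => ih.trans (h n)) hkl

end Vale.Agent.P129B.B64
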