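import Vale.Agent.P129B64.Blk
import Vale.Agent.P129BZ.Dual

/-!
# The pairing of the dual space
-/

namespace Vale.Agent.P129B.B64

universe v

variable {N : Type v} [ZM N]
variable {R : Type*} [Field R] [LinearOrder R] [IsStrictOrderedRing R] [Coded N R] [RF N R]
  {K : Type*} [Field K] [Algebra R K] [Nm K R] [KA R K] [Coded N K] [KF N R K]
  {E : Type*} [AddCommGroup E] [Module K E] [Nm E R] [NA R K E] [Coded N E] [NS N R K E]

/-- evaluation is a pairing -/
theorem pr_dual : Pr N (fun (u : Dual N K E) (x : E) => u x) where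
  dfn := by fun_prop
  add _ _ _ := rfl
  smul _ _ _ := rfl
  le u x := Dual.le_opNorm u x

end Vale.Agent.P129B.B64
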