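import Vale.Agent.P129B64.Api
import Vale.Agent.P129BM.Spec

/-!
# The rows on block sequences
-/

set_option linter.unusedSectionVars false

namespace Vale.Agent.P129B

universe v

variable {N : Type v} [ZM N]
variable {R : Type*} [Field R] [LinearOrder R] [IsStrictOrderedRing R] [Coded N R] [RF N R]
  {K : Type*} [Field K] [Algebra R K] [Nm K R] [KA R K] [Coded N K] [KF N R K]
  {E : Type*} [AddCommGroup E] [Module K E] [Nm E R] [NA R K E] [Coded N E] [NS N R K E]

theorem block_row : BLOCK N R K E := fun _ _ _ _ _ _ H h1 h2 => H.block h1 h2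

theorem beta_row : BETA N R K E := fun _ _ _ _ H h1 h2 => H.beta h1 h2

theorem blow_row : BLOW N R K E := fun _ _ _ _ _ _ _ H h1 h2 => H.block h1 h2

theorem nullta_row : NULLTA N R K E := fun _ _ _ _ hc H hx _ hε => Ta.of_null hc H hx hε

end Vale.Agent.P129B
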